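import Vale.Agent.P144Z.RN.Basic
import Vale.Agent.P144Z.A2.Main
import Vale.Agent.P144Z.R1.Main
import Vale.Agent.P144Z.R3.Main
import Vale.Agent.P144Z.R3W.Main
import Vale.Agent.P144Z.R9.Main

/-!
# The exact formula with one source
-/

namespace Vale.Agent.P144Z.SS

open Finset Matrix

variable {g : Geo}

/-- The scalar part. -/
noncomputable def al (g : Geo) : g.E →ₗ[ℝ] ℝ :=
  (aug (S := g.S)).toLinearMap ∘ₗ (Ev.val (S := g.S)).toLinearMap

/-- The coefficient of the source variable. -/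
noncomputable def ga (g : Geo) (k : g.K) : g.E →ₗ[ℝ] ℝ :=
  (aug (S := g.S)).toLinearMap ∘ₗ g.db k ∘ₗ (Ev.val (S := g.S)).toLinearMap

theorem al_apply (F : g.E) : al g F = aug (Ev.val F) := rfl

theorem ga_apply (k : g.K) (F : g.E) : ga g k F = aug (g.db k (Ev.val F)) := rfl

theorem al_one : al g 1 = 1 := by rw [al_apply, map_one, map_one]

theorem ga_one (k : g.K) : ga g k 1 = 0 := by
  rw [ga_apply, map_one, Geo.db, LinearMap.comp_apply, A1.del_one, map_zero, map_zero]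

theorem al_bv (k : g.K) : al g (g.bv k) = 0 := by
  rw [al_apply, Geo.bv, val_pp, map_mul, A1.aug_psi, zero_mul]

theorem ga_bv (k : g.K) : ga g k (g.bv k) = 1 := by
  rw [ga_apply, Geo.bv, val_pp]
  refine (beta_pp _ _ _ _).trans ?_
  simp

theorem al_db (k : g.K) (F : g.E) : al g (toEv (g.db k (Ev.val F))) = ga g k F := by
  rw [al_apply, val_toEv, ga_apply]
  rw [A1.mem_even_iff, Geo.db, LinearMap.comp_apply, A1.inv_del, A1.inv_del, map_neg, neg_neg,
    A1.mem_even_iff.1 (Ev.val_mem F)]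

theorem src_form {X : Finset g.P} {F : g.E} (hF : F ∈ g.sub X) {k : g.K} (hk : ∀ k', k' = k)
    (h0 : g.noF F = F) : F = al g F • 1 + ga g k F • g.bv k := by
  obtain ⟨h1, -, h3⟩ := Geo.eq_of_one_src hF k fun k' _ => hk k'
  have h4 := congrArg g.noF h1
  rw [h0, map_add, Geo.noF_mul, Geo.noF_noB, Geo.noF_bv, ← h3, Geo.noF_noB, ← al_apply,
    ← al_apply, al_db, mul_smul_comm, mul_one] at h4
  exact h4

theorem exp_form (a c : ℝ) (k : g.K) : NormedSpace.exp (a • (1 : g.E) + c • g.bv k) =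
    Real.exp a • ((1 : g.E) + c • g.bv k) := by
  rw [KP.exp_add', exp_sq_zero (F := c • g.bv k)
    (by rw [smul_mul_smul_comm, Geo.bv_sq, smul_zero]), ← Algebra.algebraMap_eq_smul_one,
    A2.exp_scalar, ← Algebra.smul_def]

theorem abs_al_le {ℓ : ℕ} (hℓ : 1 ≤ ℓ) {h β : ℝ} (hh : 0 < h) (hβ : 0 < β) (X : Finset g.P)
    (F : g.E) : |al g F| ≤ g.pn ℓ h β X F := RN.abs_aug_le_pn hℓ hh hβ F

theorem abs_ga_le (hA : IsSign g.A) {ℓ : ℕ} (hℓ : 1 ≤ ℓ) {h β : ℝ} (hh : 0 < h) (hβ : 0 < β)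
    {X : Finset g.P} {F : g.E} (hF : F ∈ g.sub X) (k : g.K) :
    |ga g k F| ≤ g.pn ℓ h β X F / β := by
  rw [le_div_iff₀' hβ, ← al_db]
  exact (mul_le_mul_of_nonneg_left (abs_al_le hℓ hh hβ X _) hβ.le).trans
    (Geo.pn_db_le hA hℓ hh hβ hF k)

theorem last_mem (hg : g.Ok) (L : ℕ) (q : Par) (N : ℕ) (U : Finset g.P) :
    g.last L q N U ∈ g.sub U :=
  (Geo.wf_flow hg L q 0 N).Cl_mem (covL_anti (isD_Dm hg.sign).anti _) U

theorem tot_form (hg : g.Ok) (L : ℕ) (q : Par) (N : ℕ) {k : g.K} (hk : ∀ k', k' = k) :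
    NormedSpace.exp (g.tot L q N) =
      Real.exp (al g (g.tot L q N)) • ((1 : g.E) + ga g k (g.tot L q N) • g.bv k) := by
  rw [← exp_form, ← src_form (X := univ) _ hk]
  · rw [Geo.tot_eq_cs]
    simp only [map_add, map_sum, (Geo.cs_mem hg L q _ _).2, Geo.noF_noF]
  · rw [Geo.tot_eq_cs]
    refine add_mem (sum_mem fun j _ => sum_mem fun U _ => ?_) (sum_mem fun U _ => ?_)
    · exact RN.sub_mono (subset_univ U) (Geo.cs_mem hg L q j U).1
    · exact RN.sub_mono (subset_univ U) (RN.noF_mem (last_mem hg L q N U))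

theorem lhs_form (q : Par) {k : g.K} (hk : ∀ k', k' = k) :
    ∑ n, (cw n * wt g.A q.x n * Real.exp (uint q n)) •
        NormedSpace.exp (∑ k, (g.src k).O (g.see (g.src k).y n) • g.bv k) =
      Zw q g.A 1 • (1 : g.E) +
        Zw q g.A (fun n => (g.src k).O (g.see (g.src k).y n)) • g.bv k := by
  unfold Zw
  rw [sum_smul, sum_smul, ← sum_add_distrib]
  refine sum_congr rfl fun n _ => ?_
  rw [Fintype.sum_eq_single k fun k' h => (h (hk k')).elim, exp_sq_zero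
    (by rw [smul_mul_smul_comm, Geo.bv_sq, smul_zero]), smul_add, smul_smul, Pi.one_apply, mul_one]

/-- The exact formula when the operator is invertible. -/
theorem form_inv (hg : g.Ok) {L : ℕ} {q : Par} (hZ : q.Z ≠ 0) {N : ℕ} (hc : g.Conv L q N)
    (hD : ∀ v, Dm g.A *ᵥ v = 0 → v = 0) {k : g.K} (hk : ∀ k', k' = k) :
    Zw q g.A 1 = (q.Z ^ (2 * g.M ^ 2))⁻¹ * Real.exp (al g (g.tot L q N)) * Zw par0 g.A 1 ∧
    Zw q g.A (fun n => (g.src k).O (g.see (g.src k).y n)) = (q.Z ^ (2 * g.M ^ 2))⁻¹ *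
      Real.exp (al g (g.tot L q N)) * (Zw par0 g.A 1 * ga g k (g.tot L q N)) := by
  have h := Geo.gen_inv hg hZ hc hD
  rw [lhs_form q hk, tot_form hg L q N hk] at h
  have h1 := congrArg (al g) h
  have h2 := congrArg (ga g k) h
  simp only [map_add, map_smul, al_one, al_bv, ga_one, ga_bv, smul_eq_mul] at h1 h2
  exact ⟨by linear_combination h1, by linear_combination h2⟩

/-- The exact formula in the periodic sector. -/
theorem form_per (hg : g.Ok) {L : ℕ} {q : Par} (hZ : q.Z ≠ 0) {N : ℕ} (hc : g.Conv L q N)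
    (hA : g.A = 1) {k : g.K} (hk : ∀ k', k' = k) {ℓ : ℕ} (hℓ : 1 ≤ ℓ) {h β b : ℝ} (hh : 1 ≤ h)
    (hβ : 0 < β) (hb : ∑ U, g.pn ℓ h β U (g.last L q N U) ≤ b) : ∃ u v : ℝ,
    |u| ≤ 4 * b / ℓ ∧ |v| ≤ 4 * b / ℓ / β ∧
    Zw q g.A 1 = (q.Z ^ (2 * g.M ^ 2))⁻¹ * Real.exp (al g (g.tot L q N)) * (kap g.M * u) ∧
    Zw q g.A (fun n => (g.src k).O (g.see (g.src k).y n)) = (q.Z ^ (2 * g.M ^ 2))⁻¹ *
      Real.exp (al g (g.tot L q N)) * (kap g.M * (v + u * ga g k (g.tot L q N))) := by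
  have h0 : (0 : ℝ) < h := by linarith
  have hl : (0 : ℝ) < ℓ := by exact_mod_cast hℓ
  have hz := fun U => Geo.pn_dz hA hℓ h0 hβ (last_mem hg L q N U)
  have hs : ∑ U, g.pn ℓ h β U (g.dz (g.last L q N U)) ≤ 4 * b / ℓ := by
    rw [le_div_iff₀' hl, mul_sum]
    refine le_trans (sum_le_sum fun U _ => le_trans ?_ (hz U).2) ?_
    · exact mul_le_mul_of_nonneg_right
        (le_mul_of_one_le_left hl.le (one_le_pow₀ hh)) (RN.pn_nonneg _)
    · rw [← mul_sum]
      linarith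
  have e : ∑ U, g.dz (g.last L q N U) = al g (∑ U, g.dz (g.last L q N U)) • 1 +
      ga g k (∑ U, g.dz (g.last L q N U)) • g.bv k := by
    refine src_form (X := univ) (sum_mem fun U _ => RN.sub_mono (subset_univ U) (hz U).1) hk ?_
    simp only [map_sum, Geo.dz, Geo.noF_noF]
  refine ⟨al g (∑ U, g.dz (g.last L q N U)), ga g k (∑ U, g.dz (g.last L q N U)), ?_, ?_, ?_⟩
  · rw [map_sum]
    exact (abs_sum_le_sum_abs _ _).trans
      ((sum_le_sum fun U _ => abs_al_le hℓ h0 hβ U _).trans hs)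
  · rw [map_sum]
    refine (abs_sum_le_sum_abs _ _).trans
      ((sum_le_sum fun U _ => abs_ga_le hg.sign hℓ h0 hβ (hz U).1 k).trans ?_)
    rw [← sum_div]
    exact div_le_div_of_nonneg_right hs hβ.le
  · have h := Geo.gen_per hg hZ hc hA
    rw [lhs_form q hk, tot_form hg L q N hk, e] at h
    have h1 := congrArg (al g) h
    have h2 := congrArg (ga g k) h
    simp only [mul_smul_comm, smul_mul_assoc, add_mul, mul_add, one_mul, mul_one, Geo.bv_sq,
      map_zero, map_add, map_smul, al_one, al_bv, ga_one, ga_bv, smul_eq_mul] at h1 h2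
    exact ⟨by linear_combination h1, by linear_combination h2⟩

end Vale.Agent.P144Z.SS
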