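import Vale.Agent.P144Z.S.Geom0
import Vale.Agent.P144Z.H3.Main

/-!
Comparison of the constants of the flow in different sectors and volumes, given the local
agreement of the constants.
-/

namespace Vale.Agent.P144Z.SS

open Finset Matrix

/-- The scalar constants only depend on the fluxes nearby. -/
def AgCs : Prop :=
  ∀ {g g' : Geo} {L : ℕ} {q : Par} {c : g.P} {c' : g'.P} {T : ℕ}, 8 ≤ L → g.Ok → g'.Ok → q.Ok →
    16 * (q.R + 1) ≤ g.M → 16 * (q.R + 1) ≤ g'.M → Geo.Match g g' c c' T → ∀ (j : ℕ)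
    {U : Finset g.P} {x : g.P}, x ∈ U → tdist x c + 2 * stein U + 3 * sc L j ≤ T →
    aug (Ev.val (g'.cs L q j (U.image (shf c c')))) = aug (Ev.val (g.cs L q j U))

/-- The same for the coefficient of a source. -/
def AgSrc : Prop :=
  ∀ {g g' : Geo} {L : ℕ} {q : Par} {c : g.P} {c' : g'.P} {T : ℕ}, 8 ≤ L → g.Ok → g'.Ok → q.Ok →
    16 * (q.R + 1) ≤ g.M → 16 * (q.R + 1) ≤ g'.M → Geo.Match g g' c c' T → ∀ (j : ℕ)
    {k : g.K} {k' : g'.K}, Geo.MatchS g g' c c' k k' j →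
    (∀ v ∈ (g.src k).Y, 4 * zd v 0 < min g.M g'.M) → ∀ {U : Finset g.P} {x : g.P}, x ∈ U →
    (g.src k).y ∈ U → tdist x c + 2 * stein U + 3 * sc L j ≤ T →
    aug (g'.db k' (Ev.val (g'.cs L q j (U.image (shf c c'))))) =
      aug (g.db k (Ev.val (g.cs L q j U)))

/-- The constants of a set do not see the sources outside the set. -/
def DbZero : Prop :=
  ∀ {g : Geo}, g.Ok → ∀ (L : ℕ) (q : Par) (j : ℕ) (U : Finset g.P) (k : g.K), (g.src k).y ∉ U →
    g.db k (Ev.val (g.cs L q j U)) = 0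

theorem aug_cs_empty {g : Geo} (hg : g.Ok) (L : ℕ) (q : Par) (j : ℕ) :
    aug (Ev.val (g.cs L q j ∅)) = 0 := by rw [cs_empty hg, map_zero, map_zero]

theorem ok_sec {M : ℕ} [NeZero M] {s : Src M} (hs : s.Ok) (θ : Bool × Bool) :
    (geo1 M (sec M θ) s 0).Ok := ⟨sec_sign θ, fun _ => hs⟩

theorem match_sec {M M' : ℕ} [NeZero M] [NeZero M'] (s : Src M) (s' : Src M')
    (θ θ' : Bool × Bool) (c : Tor M) (c' : Tor M') {T : ℕ} (h : 4 * T + 1 ≤ M)
    (h' : 4 * T + 1 ≤ M') : Geo.Match (geo1 M (sec M θ) s 0) (geo1 M' (sec M' θ') s' 0) c c' T :=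
  ⟨h, h', fun f _ => (sec_flat θ' _).trans (sec_flat θ f).symm⟩

theorem alpha_diff_of (H : AgCs) {L M : ℕ} [NeZero M] {q : Par} (hL : 256 ≤ L) (hq : q.Ok)
    {s : Src M} (hs : s.Ok) (θ θ' : Bool × Bool) (hR : 16 * (q.R + 1) ≤ M) {j : ℕ}
    (hj : 16 * sc L j ≤ M) {ε : ℝ}
    (h : Anch (sc L j) L (fun U => |aug (Ev.val ((geo1 M (sec M θ) s 0).cs L q j U))|) ε)
    (h' : Anch (sc L j) L (fun U => |aug (Ev.val ((geo1 M (sec M θ') s 0).cs L q j U))|) ε) :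
    |∑ U, aug (Ev.val ((geo1 M (sec M θ) s 0).cs L q j U)) -
      ∑ U, aug (Ev.val ((geo1 M (sec M θ') s 0).cs L q j U))| ≤ 2 * ε * sc L j / M := by
  refine alpha_abs (M := M) (sc_ge (by omega) j) hL hj h h' fun U hU => ?_
  rcases U.eq_empty_or_nonempty with rfl | ⟨x, hx⟩
  · exact (aug_cs_empty (ok_sec hs θ) L q j).trans (aug_cs_empty (ok_sec hs θ') L q j).symm
  · have h1 := H (g := geo1 M (sec M θ) s 0) (g' := geo1 M (sec M θ') s 0) (L := L) (c := x)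
      (c' := x) (T := 2 * stein U + 3 * sc L j) (by omega) (ok_sec hs θ) (ok_sec hs θ') hq hR hR
      (match_sec s s θ θ' x x (by omega) (by omega)) j (U := U) (x := x) hx (by
        have : tdist x x = 0 := tdist_self _
        change tdist x x + 2 * stein U + 3 * sc L j ≤ 2 * stein U + 3 * sc L j
        omega)
    have h2 : U.image (shf x x) = U :=
      (image_congr (g := id) fun y _ => shf_id x y).trans image_id
    exact h1.symm.trans (congrArg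
      (fun V : Finset (Tor M) => aug (Ev.val ((geo1 M (sec M θ') s 0).cs L q j V))) h2)

theorem gamma_diff_of (H : AgSrc) (H0 : DbZero) {L M M' : ℕ} [NeZero M] [NeZero M'] {q : Par}
    (hL : 8 ≤ L) (hq : q.Ok) {Y : Finset (ℤ × ℤ)} {O : ((ℤ × ℤ) × Fin 2 → Bool) → ℝ}
    (hs : (⟨0, Y, O, false, 0⟩ : Src M).Ok) (hs' : (⟨0, Y, O, false, 0⟩ : Src M').Ok)
    (θ θ' : Bool × Bool) (hR : 16 * (q.R + 1) ≤ M) (hR' : 16 * (q.R + 1) ≤ M')
    (hY : ∀ v ∈ Y, 4 * zd v 0 < min M M') {j T : ℕ}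
    (hT : 4 * (2 * T + 3 * sc L j) + 1 ≤ min M M') {ε : ℝ}
    (h : Anch (sc L j) L (fun U => |aug ((geo1 M (sec M θ) ⟨0, Y, O, false, 0⟩ 0).db ()
      (Ev.val ((geo1 M (sec M θ) ⟨0, Y, O, false, 0⟩ 0).cs L q j U)))|) ε)
    (h' : Anch (sc L j) L (fun U => |aug ((geo1 M' (sec M' θ') ⟨0, Y, O, false, 0⟩ 0).db ()
      (Ev.val ((geo1 M' (sec M' θ') ⟨0, Y, O, false, 0⟩ 0).cs L q j U)))|) ε) :
    |∑ U, aug ((geo1 M (sec M θ) ⟨0, Y, O, false, 0⟩ 0).db ()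
        (Ev.val ((geo1 M (sec M θ) ⟨0, Y, O, false, 0⟩ 0).cs L q j U))) -
      ∑ U, aug ((geo1 M' (sec M' θ') ⟨0, Y, O, false, 0⟩ 0).db ()
        (Ev.val ((geo1 M' (sec M' θ') ⟨0, Y, O, false, 0⟩ 0).cs L q j U)))| ≤
      2 * ε * Real.exp (-(L * T / sc L j)) := by
  refine gamma_abs (M := M) (M' := M') (by omega) (by omega) h h' (fun U hU => ?_) (fun U hU => ?_) fun U hU hT' => ?_
  · exact (congrArg aug (H0 (ok_sec hs θ) L q j U () hU)).trans (map_zero _)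
  · exact (congrArg aug (H0 (ok_sec hs' θ') L q j U () hU)).trans (map_zero _)
  · exact H (g := geo1 M (sec M θ) ⟨0, Y, O, false, 0⟩ 0)
      (g' := geo1 M' (sec M' θ') ⟨0, Y, O, false, 0⟩ 0) (c := (0 : Tor M)) (c' := (0 : Tor M'))
      (T := 2 * T + 3 * sc L j) hL (ok_sec hs θ) (ok_sec hs' θ') hq hR hR'
      (match_sec _ _ θ θ' 0 0 (by omega) (by omega)) j (k := ()) (k' := ())
      ⟨(shf_self (0 : Tor M) (0 : Tor M')).symm, rfl, rfl, rfl, rfl, fun _ _ => Iff.rfl⟩ hY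
      (U := U) (x := (0 : Tor M)) hU hU (by
        have : tdist (0 : Tor M) 0 = 0 := tdist_self _
        change tdist (0 : Tor M) 0 + 2 * stein U + 3 * sc L j ≤ 2 * T + 3 * sc L j
        omega)

end Vale.Agent.P144Z.SS
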