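import Mathlib

/-!
# Elementary limits
-/

namespace Vale.Agent.P144Z.SS

open Finset Filter Topology

theorem lim_of_unif {Θ : Type} (θ₀ : Θ) (f : ℕ → Θ → ℝ)
    (h : ∀ ε > 0, ∃ M₀, ∀ M ≥ M₀, ∀ M' ≥ M₀, ∀ θ θ', |f M θ - f M' θ'| ≤ ε) :
    ∃ o, ∀ θ, Tendsto (fun M => f M θ) atTop (𝓝 o) := by
  have hc : CauchySeq fun M => f M θ₀ := by
    refine Metric.cauchySeq_iff.2 fun ε hε => ?_
    obtain ⟨M₀, h1⟩ := h (ε / 2) (by linarith)
    exact ⟨M₀, fun M hM M' hM' => (h1 M hM M' hM' θ₀ θ₀).trans_lt (by linarith)⟩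
  obtain ⟨o, ho⟩ := cauchySeq_tendsto_of_complete hc
  refine ⟨o, fun θ => ho.congr_dist (Metric.tendsto_atTop.2 fun ε hε => ?_)⟩
  obtain ⟨M₀, h1⟩ := h (ε / 2) (by linarith)
  refine ⟨M₀, fun M hM => ?_⟩
  rw [Real.dist_eq, sub_zero, abs_of_nonneg dist_nonneg]
  exact (h1 M hM M hM θ₀ θ).trans_lt (by linarith)

theorem wmean {Θ : Type} [Fintype Θ] {p w : ℕ → Θ → ℝ} {o : ℝ}
    (hp : ∀ᶠ M in atTop, (∀ θ, 0 ≤ p M θ) ∧ ∑ θ, p M θ = 1)
    (hw : ∀ θ, Tendsto (fun M => w M θ) atTop (𝓝 o)) :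
    Tendsto (fun M => ∑ θ, p M θ * w M θ) atTop (𝓝 o) := by
  have h1 : Tendsto (fun M => ∑ θ, |w M θ - o|) atTop (𝓝 0) := by
    have := tendsto_finsetSum univ fun θ _ => ((hw θ).sub_const o).abs
    simpa using this
  rw [tendsto_iff_dist_tendsto_zero]
  refine squeeze_zero' (Eventually.of_forall fun _ => dist_nonneg) ?_ h1
  filter_upwards [hp] with M hM
  have e : ∑ θ, p M θ * w M θ - o = ∑ θ, p M θ * (w M θ - o) := by
    simp only [mul_sub, sum_sub_distrib, ← sum_mul, hM.2, one_mul]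
  rw [Real.dist_eq, e]
  refine (abs_sum_le_sum_abs _ _).trans (sum_le_sum fun θ _ => ?_)
  rw [abs_mul, abs_of_nonneg (hM.1 θ)]
  refine mul_le_of_le_one_left (abs_nonneg _) ?_
  rw [← hM.2]
  exact single_le_sum (fun θ _ => hM.1 θ) (mem_univ θ)

/-- The ratio of two sums over the sectors. -/
theorem ratio_lim {Θ : Type} [Fintype Θ] (θ₀ : Θ) {P Q z x y a c : ℕ → Θ → ℝ} {Z : ℕ → ℝ} {o : ℝ}
    (h : ∀ᶠ M in atTop, Z M ≠ 0 ∧ (∀ θ, 0 ≤ z M θ) ∧ 0 < ∑ θ, z M θ ∧ ∀ θ,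
      Q M θ = Z M * Real.exp (a M θ) * (z M θ + x M θ) ∧
      P M θ = Z M * Real.exp (a M θ) * (z M θ * c M θ + y M θ))
    (hx : ∀ θ, Tendsto (fun M => x M θ / ∑ θ, z M θ) atTop (𝓝 0))
    (hy : ∀ θ, Tendsto (fun M => y M θ / ∑ θ, z M θ) atTop (𝓝 0))
    (ha : ∀ θ, Tendsto (fun M => a M θ - a M θ₀) atTop (𝓝 0))
    (hc : ∀ θ, Tendsto (fun M => c M θ) atTop (𝓝 o)) :
    Tendsto (fun M => (∑ θ, P M θ) / ∑ θ, Q M θ) atTop (𝓝 o) := by
  have he : ∀ θ, Tendsto (fun M => Real.exp (a M θ - a M θ₀)) atTop (𝓝 1) := fun θ => by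
    have := (ha θ).rexp
    rwa [Real.exp_zero] at this
  have hp : ∀ᶠ M in atTop, (∀ θ, 0 ≤ z M θ / ∑ θ, z M θ) ∧ ∑ θ, z M θ / ∑ θ, z M θ = 1 := by
    filter_upwards [h] with M hM
    exact ⟨fun θ => div_nonneg (hM.2.1 θ) hM.2.2.1.le, by rw [← sum_div, div_self hM.2.2.1.ne']⟩
  have h1 := (wmean hp fun θ => (he θ).mul (hc θ)).add
    (tendsto_finsetSum univ fun θ _ => (he θ).mul (hy θ))
  have h2 := (wmean hp he).add (tendsto_finsetSum univ fun θ _ => (he θ).mul (hx θ))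
  simp only [mul_zero, sum_const_zero, add_zero, one_mul] at h1 h2
  have h3 := h1.div h2 one_ne_zero
  rw [div_one] at h3
  refine h3.congr' ?_
  filter_upwards [h] with M hM
  obtain ⟨hZ, -, hS, hM⟩ := hM
  rw [Pi.div_apply]
  generalize ∑ θ, z M θ = S at hS
  have hk : Z M * Real.exp (a M θ₀) * S ≠ 0 :=
    mul_ne_zero (mul_ne_zero hZ (Real.exp_ne_zero _)) hS.ne'
  rw [← mul_div_mul_left _ _ hk, ← sum_add_distrib, ← sum_add_distrib, mul_sum, mul_sum]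
  congr 1
  · refine sum_congr rfl fun θ _ => ?_
    rw [(hM θ).2, Real.exp_sub]
    field_simp
  · refine sum_congr rfl fun θ _ => ?_
    rw [(hM θ).1, Real.exp_sub]
    field_simp

theorem ratio_lim' {Θ : Type} [Fintype Θ] (θ₀ : Θ) {P Q z a c : ℕ → Θ → ℝ} {Z b : ℕ → ℝ} {o : ℝ}
    (h : ∀ᶠ M in atTop, Z M ≠ 0 ∧ (∀ θ, 0 ≤ z M θ) ∧ 0 < ∑ θ, z M θ ∧ ∀ θ, ∃ x y : ℝ,
      Q M θ = Z M * Real.exp (a M θ) * (z M θ + x) ∧
      P M θ = Z M * Real.exp (a M θ) * (z M θ * c M θ + y) ∧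
      |x| ≤ b M * ∑ θ, z M θ ∧ |y| ≤ b M * (1 + |c M θ|) * ∑ θ, z M θ)
    (hb : Tendsto b atTop (𝓝 0)) (ha : ∀ θ, Tendsto (fun M => a M θ - a M θ₀) atTop (𝓝 0))
    (hc : ∀ θ, Tendsto (fun M => c M θ) atTop (𝓝 o)) :
    Tendsto (fun M => (∑ θ, P M θ) / ∑ θ, Q M θ) atTop (𝓝 o) := by
  refine ratio_lim θ₀ (z := z) (Z := Z) (x := fun M θ => Q M θ / (Z M * Real.exp (a M θ)) - z M θ)
    (y := fun M θ => P M θ / (Z M * Real.exp (a M θ)) - z M θ * c M θ) ?_ (fun θ => ?_)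
    (fun θ => ?_) ha hc
  · filter_upwards [h] with M hM
    have h1 := hM.1
    refine ⟨h1, hM.2.1, hM.2.2.1, fun θ => ⟨?_, ?_⟩⟩ <;> field_simp <;> ring
  · refine squeeze_zero_norm' ?_ hb
    filter_upwards [h] with M hM
    obtain ⟨x, y, h1, -, h3, -⟩ := hM.2.2.2 θ
    rw [h1, mul_div_cancel_left₀ _ (mul_ne_zero hM.1 (Real.exp_ne_zero _)), add_sub_cancel_left,
      Real.norm_eq_abs, abs_div, abs_of_pos hM.2.2.1, div_le_iff₀ hM.2.2.1]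
    exact h3
  · have hb' := hb.mul ((hc θ).abs.const_add 1)
    rw [zero_mul] at hb'
    refine squeeze_zero_norm' ?_ hb'
    filter_upwards [h] with M hM
    obtain ⟨x, y, -, h2, -, h4⟩ := hM.2.2.2 θ
    rw [h2, mul_div_cancel_left₀ _ (mul_ne_zero hM.1 (Real.exp_ne_zero _)), add_sub_cancel_left,
      Real.norm_eq_abs, abs_div, abs_of_pos hM.2.2.1, div_le_iff₀ hM.2.2.1]
    exact h4

theorem per_num {β κ u v c w K E S : ℝ} (hβ : 0 < β) (hK : 0 ≤ K * E) (hS : 0 ≤ S) (h1 : |u| ≤ w)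
    (h2 : |v| ≤ w / β) (h3 : |κ| * w ≤ K * E * S) : |κ * u| ≤ K * (1 + β⁻¹) * E * S ∧
      |κ * (v + u * c)| ≤ K * (1 + β⁻¹) * E * (1 + |c|) * S := by
  have k6 : |κ| * |u| ≤ |κ| * w := by gcongr
  have k7 : |κ| * |v| ≤ |κ| * w * β⁻¹ := by rw [mul_assoc, ← div_eq_mul_inv]; gcongr
  have k8 := mul_nonneg hK hS
  have k9 : 0 < β⁻¹ := inv_pos.2 hβ
  have k10 : |v + u * c| ≤ |v| + |u| * |c| := (abs_add_le _ _).trans (by rw [abs_mul])
  have k11 := mul_le_mul_of_nonneg_left k10 (abs_nonneg κ)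
  have k12 := mul_le_mul_of_nonneg_right (k6.trans h3) (abs_nonneg c)
  have k13 := mul_le_mul_of_nonneg_right h3 k9.le
  have k14 := mul_nonneg k8 k9.le
  have k15 := mul_nonneg k14 (abs_nonneg c)
  rw [abs_mul, abs_mul]
  constructor <;> linarith

/-- The number of steps. -/
def nst (L M : ℕ) : ℕ := Nat.log L (M / 128)

theorem nst_le {L M : ℕ} (hM : 128 ≤ M) : 16 * (8 * L ^ nst L M) ≤ M := by
  have h := Nat.pow_log_le_self L (x := M / 128) (by omega)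
  unfold nst
  omega

theorem le_nst {L : ℕ} (hL : 1 < L) (M : ℕ) : M ≤ 16 * (8 * L ^ (nst L M + 1)) := by
  have h := Nat.lt_pow_succ_log_self hL (M / 128)
  unfold nst
  rw [Nat.succ_eq_add_one] at h
  omega

theorem nst_tendsto {L : ℕ} (hL : 1 < L) : Tendsto (fun M => nst L (M + 1)) atTop atTop := by
  refine tendsto_atTop_atTop.2 fun n => ⟨128 * L ^ n, fun M hM => ?_⟩
  exact Nat.le_log_of_pow_le hL (by omega)

theorem log_le {L M N : ℕ} (hL : 256 ≤ L) (h0 : 1 ≤ M) (hM : M ≤ 16 * (8 * L ^ (N + 1))) :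
    1 + Real.log M ≤ (N + 3) * L := by
  have hL' : (256 : ℝ) ≤ L := by exact_mod_cast hL
  have h1 : M ≤ L ^ (N + 2) := by
    rw [pow_succ L (N + 1)]
    nlinarith [Nat.zero_le (L ^ (N + 1))]
  have h2 : Real.log M ≤ Real.log ((L : ℝ) ^ (N + 2)) :=
    Real.log_le_log (by exact_mod_cast h0) (by exact_mod_cast h1)
  rw [Real.log_pow] at h2
  have h3 : Real.log L ≤ L := (Real.log_le_sub_one_of_pos (by linarith)).trans (by linarith)
  have h4 := mul_le_mul_of_nonneg_left h3 (Nat.cast_nonneg (α := ℝ) (N + 2))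
  push_cast at h2 h4
  linarith

theorem geo_sc {L M N j : ℕ} (hL : 256 ≤ L) (hj : j ≤ N) (hM : 16 * (8 * L ^ N) ≤ M) :
    (3 / 4 : ℝ) ^ j * (8 * L ^ j : ℕ) / M ≤ (3 / 4) ^ N := by
  obtain ⟨d, rfl⟩ := Nat.exists_eq_add_of_le hj
  have hL' : (256 : ℝ) ≤ L := by exact_mod_cast hL
  have h1 : (8 : ℝ) * L ^ (j + d) ≤ M := by exact_mod_cast (by omega : 8 * L ^ (j + d) ≤ M)
  have h2 : (1 : ℝ) ≤ (3 / 4 * L) ^ d := one_le_pow₀ (by linarith)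
  rw [div_le_iff₀ (lt_of_lt_of_le (by positivity) h1)]
  push_cast
  calc (3 / 4 : ℝ) ^ j * (8 * L ^ j) ≤ (3 / 4 : ℝ) ^ j * (8 * L ^ j) * (3 / 4 * L) ^ d :=
        le_mul_of_one_le_right (by positivity) h2
    _ = (3 / 4) ^ (j + d) * (8 * L ^ (j + d)) := by ring
    _ ≤ _ := by gcongr

theorem lin_geo (K : ℝ) : Tendsto (fun n : ℕ => K * ((n + 3) * (3 / 4 : ℝ) ^ n)) atTop (𝓝 0) := by
  have h1 := tendsto_self_mul_const_pow_of_lt_one (r := (3 / 4 : ℝ)) (by norm_num) (by norm_num)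
  have h2 := tendsto_pow_atTop_nhds_zero_of_lt_one (r := (3 / 4 : ℝ)) (by norm_num) (by norm_num)
  have h3 := (h1.add (h2.const_mul 3)).const_mul K
  simp only [mul_zero, add_zero] at h3
  exact h3.congr fun n => by ring

end Vale.Agent.P144Z.SS
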