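import Vale.Agent.P144Z.S.Flow
import Vale.Agent.P144Z.S.Form
import Vale.Agent.P144Z.S.Lim
import Vale.Agent.P144Z.S.Geom1
import Vale.Agent.P144Z.E5.Main
import Vale.Agent.P144Z.H1.Main
import Vale.Agent.P144Z.H4.Main

/-!
# Convergence of the state
-/

namespace Vale.Agent.P144Z

open Finset Matrix Filter Topology

namespace SS

theorem agCs : AgCs := fun hL hg hg' hq hR hR' hm j _ _ hx hU =>
  Geo.ag_cs hL hg hg' hq hR hR' hm j hx hU

theorem agSrc : AgSrc := fun hL hg hg' hq hR hR' hm j _ _ hk hY _ _ hx hy hU =>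
  Geo.ag_cs_src hL hg hg' hq hR hR' hm j hk hY hx hy hU

theorem dbZero : DbZero := fun hg L q j U _ hk => Geo.db_of_not_mem (Geo.cs_mem hg L q j U).1 hk

theorem gap_sec : ∃ C₀ : ℝ, ∀ (M : ℕ) [NeZero M] (θ : Bool × Bool),
    (∀ v, (Dm (sec M θ) *ᵥ v) ⬝ᵥ (Dm (sec M θ) *ᵥ v) ≤ (C₀ * M) ^ 2 *
      (((Dm (sec M θ) * Dm (sec M θ)) *ᵥ v) ⬝ᵥ ((Dm (sec M θ) * Dm (sec M θ)) *ᵥ v))) ∧
    (θ ≠ (false, false) → ∀ v, Dm (sec M θ) *ᵥ v = 0 → v = 0) := by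
  obtain ⟨C₁, hC₁, h1⟩ := gap_flat
  obtain ⟨C₂, hC₂, h2⟩ := gap_per
  refine ⟨C₁ + C₂, fun M _ θ => ⟨fun v => ?_, fun hθ v hv => ?_⟩⟩
  · rw [← RN.l2sq_univ, ← RN.l2sq_univ, ← mulVec_mulVec]
    have h0 := E3.l2sq_nonneg univ (Dm (sec M θ) *ᵥ Dm (sec M θ) *ᵥ v)
    by_cases hθ : θ = (false, false)
    · subst hθ
      rw [sec_ff] at h0 ⊢
      obtain ⟨a1, -, a3⟩ := h2 M
      have h3 := a3 (Dm 1 *ᵥ v)
      have e : ∀ a, zm M a ⬝ᵥ Dm (1 : Gauge M) *ᵥ v = 0 := fun a => by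
        rw [dotProduct_mulVec, ← mulVec_transpose, (isD_Dm (A := 1) fun _ => Or.inl rfl).anti,
          neg_mulVec, a1, neg_zero, zero_dotProduct]
      simp only [e, zero_smul, sum_const_zero, sub_zero] at h3
      refine h3.trans (mul_le_mul_of_nonneg_right ?_ h0)
      gcongr
      linarith
    · refine (h1 M _ (sec_sign θ) (sec_flat θ) (sec_anti hθ) _).1.trans
        (mul_le_mul_of_nonneg_right ?_ h0)
      gcongr
      linarith
  · have h3 := (h1 M _ (sec_sign θ) (sec_flat θ) (sec_anti hθ) v).1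
    rw [hv, RN.l2sq_univ, RN.l2sq_univ, dotProduct_zero, mul_zero, ← RN.l2sq_univ] at h3
    exact dotProduct_self_eq_zero.1
      ((RN.l2sq_univ v).symm.trans (le_antisymm h3 (E3.l2sq_nonneg _ _)))

theorem sum_le_of_zero {M : ℕ} [NeZero M] {ℓ L : ℕ} {ε : ℝ} {f : Finset (Tor M) → ℝ}
    (h : Anch ℓ L (fun U => |f U|) ε) (h0 : ∀ U, 0 ∉ U → f U = 0) : |∑ U, f U| ≤ ε := by
  rw [← sum_filter_of_ne (p := fun U => 0 ∈ U) fun U _ hU => not_not.1 fun h5 => hU (h0 U h5)]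
  refine (abs_sum_le_sum_abs _ _).trans ((G.anch_cover' (t := 0) (fun _ => abs_nonneg _)
    h _ {0} (fun U hU => ?_) fun U _ => by positivity).trans (le_of_eq ?_))
  · exact ⟨0, (mem_filter.1 hU).2, 0, mem_singleton_self _, by rw [tdist_self]; omega⟩
  · simp

/-- The torus in the sector `θ` with one source at the origin. -/
abbrev gS (M : ℕ) (Y : Finset (ℤ × ℤ)) (O : ((ℤ × ℤ) × Fin 2 → Bool) → ℝ) (θ : Bool × Bool) : Geo :=
  geo1 (M + 1) (sec (M + 1) θ) ⟨0, Y, O, false, 0⟩ 0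

/-- The bounds on the flow hold in all large volumes. -/
structure Fl (L : ℕ) (q : Par) (Y : Finset (ℤ × ℤ)) (O : ((ℤ × ℤ) × Fin 2 → Bool) → ℝ) (β : ℝ) :
    Prop where
  hL : 256 ≤ L
  hq : q.Ok
  hβ : 0 < β
  ok : ∀ M : ℕ, (⟨0, Y, O, false, 0⟩ : Src M).Ok
  bd : ∀ M : ℕ, 128 ≤ M → 16 * (q.R + 1) ≤ M → ∀ θ, (gS M Y O θ).Conv L q (nst L (M + 1)) ∧
    (∀ j ≤ nst L (M + 1), Anch (sc L j) L
      (fun U => (gS M Y O θ).pn 1 1 β U ((gS M Y O θ).cs L q j U)) (3 * (3 / 4) ^ j)) ∧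
    ∑ U, (gS M Y O θ).pn (sc L (nst L (M + 1))) ((L : ℝ) ^ 2 / 2) β U
      ((gS M Y O θ).last L q (nst L (M + 1)) U) ≤ 2 * (3 / 4) ^ nst L (M + 1)

variable {L : ℕ} {q : Par} {Y : Finset (ℤ × ℤ)} {O : ((ℤ × ℤ) × Fin 2 → Bool) → ℝ} {β : ℝ}

theorem Fl.gok (h : Fl L q Y O β) (M : ℕ) (θ : Bool × Bool) : (gS M Y O θ).Ok := ok_sec (h.ok _) θ

theorem Fl.one_le (h : Fl L q Y O β) : (1 : ℝ) ≤ (L : ℝ) ^ 2 / 2 := by
  have h1 : (256 : ℝ) ≤ L := by exact_mod_cast h.hL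
  nlinarith

theorem Fl.sc_pos (h : Fl L q Y O β) (j : ℕ) : 1 ≤ sc L j :=
  le_trans (by norm_num) (eight_le_sc (le_trans (by norm_num) h.hL) j)

theorem Fl.al_cs (h : Fl L q Y O β) {M : ℕ} (h1 : 128 ≤ M) (h2 : 16 * (q.R + 1) ≤ M)
    (θ : Bool × Bool) {j : ℕ} (hj : j ≤ nst L (M + 1)) :
    Anch (sc L j) L (fun U => |aug (Ev.val ((gS M Y O θ).cs L q j U))|) (3 * (3 / 4) ^ j) :=
  anch_mono ((h.bd M h1 h2 θ).2.1 j hj) (fun _ => abs_nonneg _)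
    (fun U => abs_al_le le_rfl one_pos h.hβ U _) le_rfl le_rfl

theorem Fl.ga_cs (h : Fl L q Y O β) {M : ℕ} (h1 : 128 ≤ M) (h2 : 16 * (q.R + 1) ≤ M)
    (θ : Bool × Bool) {j : ℕ} (hj : j ≤ nst L (M + 1)) :
    Anch (sc L j) L (fun U => |aug ((gS M Y O θ).db () (Ev.val ((gS M Y O θ).cs L q j U)))|)
      (3 * (3 / 4) ^ j / β) := fun z => by
  have h3 := div_le_div_of_nonneg_right ((h.bd M h1 h2 θ).2.1 j hj z) h.hβ.le
  rw [sum_div] at h3
  refine le_trans (sum_le_sum fun U _ => ?_) h3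
  exact (mul_le_mul_of_nonneg_right (abs_ga_le (h.gok M θ).sign le_rfl one_pos h.hβ
    (Geo.cs_mem (h.gok M θ) L q j U).1 ()) (Real.exp_pos _).le).trans_eq
    (mul_div_right_comm _ _ _).symm

theorem Fl.last_le (h : Fl L q Y O β) {M : ℕ} (h1 : 128 ≤ M) (h2 : 16 * (q.R + 1) ≤ M)
    (θ : Bool × Bool) :
    |∑ U, al (gS M Y O θ) ((gS M Y O θ).noF ((gS M Y O θ).last L q (nst L (M + 1)) U))| ≤
      2 * (3 / 4) ^ nst L (M + 1) ∧
    |∑ U, ga (gS M Y O θ) () ((gS M Y O θ).noF ((gS M Y O θ).last L q (nst L (M + 1)) U))| ≤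
      2 * (3 / 4) ^ nst L (M + 1) / β := by
  have hh := lt_of_lt_of_le one_pos h.one_le
  have hg := h.gok M θ
  have h3 := (sum_le_sum fun U _ => Geo.pn_noF_le hg.sign (h.sc_pos _) hh h.hβ
    (last_mem hg L q _ U)).trans (h.bd M h1 h2 θ).2.2
  refine ⟨(abs_sum_le_sum_abs _ _).trans
    ((sum_le_sum fun U _ => abs_al_le (h.sc_pos _) hh h.hβ U _).trans h3),
    (abs_sum_le_sum_abs _ _).trans ((sum_le_sum fun U _ => abs_ga_le hg.sign
      (h.sc_pos (nst L (M + 1))) hh h.hβ (RN.noF_mem (last_mem hg L q _ U)) ()).trans ?_)⟩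
  rw [← sum_div]
  exact div_le_div_of_nonneg_right h3 h.hβ.le

/-- The free energies of the sectors agree in the limit. -/
theorem Fl.a_lim (h : Fl L q Y O β) (θ θ' : Bool × Bool) :
    Tendsto (fun M => al (gS M Y O θ) ((gS M Y O θ).tot L q (nst L (M + 1))) -
      al (gS M Y O θ') ((gS M Y O θ').tot L q (nst L (M + 1)))) atTop (𝓝 0) := by
  have hL := h.hL
  refine squeeze_zero_norm' ?_ ((lin_geo 6).comp (nst_tendsto (L := L) (by omega)))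
  filter_upwards [eventually_ge_atTop 128, eventually_ge_atTop (16 * (q.R + 1))] with M h1 h2
  have hN := nst_le (L := L) (M := M + 1) (by omega)
  have h3 := (h.last_le h1 h2 θ).1
  have h4 := (h.last_le h1 h2 θ').1
  have h5 : |∑ j ∈ range (nst L (M + 1) + 1),
      (∑ U, al (gS M Y O θ) ((gS M Y O θ).cs L q j U) -
        ∑ U, al (gS M Y O θ') ((gS M Y O θ').cs L q j U))| ≤
      ∑ _j ∈ range (nst L (M + 1) + 1), 6 * (3 / 4) ^ nst L (M + 1) := by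
    refine (abs_sum_le_sum_abs _ _).trans (sum_le_sum fun j hj => ?_)
    have hj' : j ≤ nst L (M + 1) := Nat.le_of_lt_succ (mem_range.1 hj)
    refine (alpha_diff_of agCs hL h.hq (h.ok _) θ θ' (by omega)
      (le_trans (Nat.mul_le_mul_left 16 (sc_mono (by omega) hj')) hN) (h.al_cs h1 h2 θ hj')
      (h.al_cs h1 h2 θ' hj')).trans ?_
    have h6 := geo_sc hL hj' hN
    unfold sc
    rw [mul_div_assoc] at h6 ⊢
    linarith
  rw [sum_sub_distrib, sum_const, card_range, nsmul_eq_mul] at h5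
  simp only [Geo.tot_eq_cs, map_add, map_sum, Function.comp_apply, Real.norm_eq_abs]
  have h0 : (0 : ℝ) ≤ (3 / 4) ^ nst L (M + 1) := by positivity
  push_cast at h5
  rw [abs_le] at h3 h4 h5 ⊢
  constructor <;> linarith [h3.1, h3.2, h4.1, h4.2, h5.1, h5.2]

theorem Fl.c_tail (h : Fl L q Y O β) {M : ℕ} (h1 : 128 ≤ M) (h2 : 16 * (q.R + 1) ≤ M)
    (θ : Bool × Bool) {J : ℕ} (hJ : J ≤ nst L (M + 1)) :
    |ga (gS M Y O θ) () ((gS M Y O θ).tot L q (nst L (M + 1))) -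
      ∑ j ∈ range J, ∑ U, ga (gS M Y O θ) () ((gS M Y O θ).cs L q j U)| ≤
      14 / β * (3 / 4) ^ J := by
  have hβ := h.hβ
  have h3 := (h.last_le h1 h2 θ).2
  have h4 : |∑ j ∈ Ico J (nst L (M + 1) + 1), ∑ U, ga (gS M Y O θ) () ((gS M Y O θ).cs L q j U)| ≤
      ∑ j ∈ Ico J (nst L (M + 1) + 1), 3 / β * (3 / 4) ^ j := by
    refine (abs_sum_le_sum_abs _ _).trans (sum_le_sum fun j hj => ?_)
    exact (sum_le_of_zero (h.ga_cs h1 h2 θ (Nat.le_of_lt_succ (mem_Ico.1 hj).2)) fun U h5 =>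
      (congrArg aug (dbZero (h.gok M θ) L q j U () h5)).trans (map_zero _)).trans_eq (by ring)
  have h5 := geom_sum_Ico_le_of_lt_one (x := (3 / 4 : ℝ)) (m := J) (n := nst L (M + 1) + 1)
    (by norm_num) (by norm_num)
  have h6 : (3 / 4 : ℝ) ^ nst L (M + 1) ≤ (3 / 4) ^ J :=
    pow_le_pow_of_le_one (by norm_num) (by norm_num) hJ
  have h7 := mul_le_mul_of_nonneg_left h5 (by positivity : 0 ≤ 3 / β)
  have h8 := mul_le_mul_of_nonneg_left h6 (by positivity : 0 ≤ 2 / β)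
  rw [← mul_sum] at h4
  simp only [Geo.tot_eq_cs, map_add, map_sum]
  rw [← sum_range_add_sum_Ico _ (hJ.trans (Nat.le_succ _))]
  have e1 : 2 * (3 / 4 : ℝ) ^ nst L (M + 1) / β = 2 / β * (3 / 4) ^ nst L (M + 1) := by ring
  have e2 : 3 / β * ((3 / 4 : ℝ) ^ J / (1 - 3 / 4)) + 2 / β * (3 / 4) ^ J =
      14 / β * (3 / 4) ^ J := by ring
  rw [abs_le] at h3 h4 ⊢
  constructor <;> linarith [h3.1, h3.2, h4.1, h4.2]

/-- The coefficient of the source converges. -/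
theorem Fl.c_lim (h : Fl L q Y O β) : ∃ o, ∀ θ, Tendsto
    (fun M => ga (gS M Y O θ) () ((gS M Y O θ).tot L q (nst L (M + 1)))) atTop (𝓝 o) := by
  have hL := h.hL
  refine lim_of_unif AA _ fun ε hε => ?_
  have t1 := (tendsto_pow_atTop_nhds_zero_of_lt_one (r := (3 / 4 : ℝ)) (by norm_num)
    (by norm_num)).const_mul (14 / β)
  rw [mul_zero] at t1
  obtain ⟨J, hJ⟩ := (t1.eventually (ge_mem_nhds (by linarith : 0 < ε / 4))).exists
  have t2 : Tendsto (fun T : ℕ => ∑ j ∈ range J,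
      2 * (3 * (3 / 4) ^ j / β) * Real.exp (-((L : ℝ) * T / sc L j))) atTop (𝓝 0) := by
    have t3 := tendsto_finsetSum (range J) fun j _ =>
      (Real.tendsto_exp_neg_atTop_nhds_zero.comp ((tendsto_natCast_atTop_atTop.const_mul_atTop
        (r := (L : ℝ)) (by exact_mod_cast (by omega))).atTop_div_const (r := (sc L j : ℝ))
        (by exact_mod_cast h.sc_pos j))).const_mul (2 * (3 * (3 / 4) ^ j / β))
    simp only [mul_zero, sum_const_zero] at t3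
    exact t3
  obtain ⟨T, hT⟩ := (t2.eventually (ge_mem_nhds (by linarith : 0 < ε / 2))).exists
  obtain ⟨M₁, hM₁⟩ := eventually_atTop.1 ((nst_tendsto (L := L) (by omega)).eventually_ge_atTop J)
  refine ⟨max (max (max 128 (16 * (q.R + 1))) M₁)
    (max (4 * (2 * T + 3 * sc L J)) (4 * Y.sup fun v => zd v 0)), fun M hM M' hM' θ θ' => ?_⟩
  have a1 := h.c_tail (M := M) (by omega) (by omega) θ (hM₁ M (by omega))
  have a2 := h.c_tail (M := M') (by omega) (by omega) θ' (hM₁ M' (by omega))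
  have a3 : |∑ j ∈ range J, (∑ U, ga (gS M Y O θ) () ((gS M Y O θ).cs L q j U) -
      ∑ U, ga (gS M' Y O θ') () ((gS M' Y O θ').cs L q j U))| ≤ ε / 2 := by
    refine (abs_sum_le_sum_abs _ _).trans ((sum_le_sum fun j hj => ?_).trans hT)
    have hj' := (mem_range.1 hj).le
    have h5 := sc_mono (L := L) (by omega) hj'
    refine gamma_diff_of agSrc dbZero (by omega) h.hq (h.ok _) (h.ok _) θ θ' (by omega) (by omega)
      (fun v hv => ?_) (by omega)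
      (h.ga_cs (by omega) (by omega) θ (hj'.trans (hM₁ M (by omega))))
      (h.ga_cs (by omega) (by omega) θ' (hj'.trans (hM₁ M' (by omega))))
    have h6 : zd v 0 ≤ Y.sup fun v => zd v 0 := le_sup (f := fun v => zd v 0) hv
    omega
  rw [sum_sub_distrib] at a3
  rw [abs_le] at a1 a2 a3 ⊢
  constructor <;> linarith [a1.1, a1.2, a2.1, a2.2, a3.1, a3.2]

theorem obs_eq (M : ℕ) (θ : Bool × Bool) :
    (fun n => ((gS M Y O θ).src ()).O ((gS M Y O θ).see ((gS M Y O θ).src ()).y n)) =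
      obs (M + 1) O := by
  funext n
  refine congrArg O (funext fun e => ?_)
  exact congrArg (fun x => n (x, e.2)) (zero_add _)

theorem Fl.Z_ne (h : Fl L q Y O β) : q.Z ≠ 0 :=
  (lt_of_lt_of_le (by norm_num) h.hq.Z_lo).ne'

theorem Fl.inv (h : Fl L q Y O β) {M : ℕ} (h1 : 128 ≤ M) (h2 : 16 * (q.R + 1) ≤ M)
    {θ : Bool × Bool} (hD : ∀ v, Dm (sec (M + 1) θ) *ᵥ v = 0 → v = 0) :
    Zw q (sec (M + 1) θ) 1 = (q.Z ^ (2 * (M + 1) ^ 2))⁻¹ *
      Real.exp (al (gS M Y O θ) ((gS M Y O θ).tot L q (nst L (M + 1)))) *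
        Zw par0 (sec (M + 1) θ) 1 ∧
    Zw q (sec (M + 1) θ) (obs (M + 1) O) = (q.Z ^ (2 * (M + 1) ^ 2))⁻¹ *
      Real.exp (al (gS M Y O θ) ((gS M Y O θ).tot L q (nst L (M + 1)))) *
        (Zw par0 (sec (M + 1) θ) 1 * ga (gS M Y O θ) () ((gS M Y O θ).tot L q (nst L (M + 1)))) := by
  have h3 := form_inv (h.gok M θ) h.Z_ne (h.bd M h1 h2 θ).1 hD (k := ()) fun _ => rfl
  rw [obs_eq] at h3
  exact h3

theorem Fl.per (h : Fl L q Y O β) {M : ℕ} (h1 : 128 ≤ M) (h2 : 16 * (q.R + 1) ≤ M)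
    {θ : Bool × Bool} (hθ : θ = (false, false)) : ∃ u v : ℝ,
    |u| ≤ 4 * (2 * (3 / 4) ^ nst L (M + 1)) / sc L (nst L (M + 1)) ∧
    |v| ≤ 4 * (2 * (3 / 4) ^ nst L (M + 1)) / sc L (nst L (M + 1)) / β ∧
    Zw q (sec (M + 1) θ) 1 = (q.Z ^ (2 * (M + 1) ^ 2))⁻¹ *
      Real.exp (al (gS M Y O θ) ((gS M Y O θ).tot L q (nst L (M + 1)))) * (kap (M + 1) * u) ∧
    Zw q (sec (M + 1) θ) (obs (M + 1) O) = (q.Z ^ (2 * (M + 1) ^ 2))⁻¹ *
      Real.exp (al (gS M Y O θ) ((gS M Y O θ).tot L q (nst L (M + 1)))) *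
        (kap (M + 1) * (v + u * ga (gS M Y O θ) () ((gS M Y O θ).tot L q (nst L (M + 1))))) := by
  have h3 := form_per (h.gok M θ) h.Z_ne (h.bd M h1 h2 θ).1 (hθ ▸ sec_ff) (k := ()) (fun _ => rfl)
    (h.sc_pos _) h.one_le h.hβ (h.bd M h1 h2 θ).2.2
  rw [obs_eq] at h3
  exact h3

theorem Fl.kap_bd (h : Fl L q Y O β) {M : ℕ} {κ C S : ℝ} (hC : 1 ≤ C) (hS : 0 < S) (h0 : 1 ≤ M)
    (hκ : κ ≤ C * M * (1 + Real.log M) * S) :
    κ * (4 * (2 * (3 / 4) ^ nst L M) / sc L (nst L M)) ≤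
      128 * C * L ^ 2 * ((nst L M + 3) * (3 / 4) ^ nst L M) * S := by
  have hL := h.hL
  have k2 := log_le hL h0 (le_nst (L := L) (by omega) M)
  have k3 : (M : ℝ) ≤ 16 * L * sc L (nst L M) := by
    have := le_nst (L := L) (by omega) M
    rw [mul_assoc]
    exact_mod_cast this.trans_eq (congrArg (16 * ·) (sc_succ L _))
  have hl : (0 : ℝ) < sc L (nst L M) := by exact_mod_cast h.sc_pos _
  have k5 : 0 ≤ 1 + Real.log M := by linarith [Real.log_natCast_nonneg M]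
  calc _ ≤ C * (16 * L * sc L (nst L M)) * ((nst L M + 3) * L) * S *
        (4 * (2 * (3 / 4) ^ nst L M) / sc L (nst L M)) := by
        refine mul_le_mul_of_nonneg_right (hκ.trans ?_) (by positivity)
        gcongr
    _ = _ := by field_simp; ring

theorem Fl.stateOK (h : Fl L q Y O β)
    (hD : ∀ M θ, θ ≠ (false, false) → ∀ v, Dm (sec (M + 1) θ) *ᵥ v = 0 → v = 0) : ∃ o : ℝ,
    Tendsto (fun M : ℕ => (∑ θ, Zw q (sec (M + 1) θ) (obs (M + 1) O)) /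
      ∑ θ, Zw q (sec (M + 1) θ) 1) atTop (𝓝 o) ∧
    Tendsto (fun M : ℕ => Zw q (sec (M + 1) AA) (obs (M + 1) O) / Zw q (sec (M + 1) AA) 1)
      atTop (𝓝 o) := by
  obtain ⟨o, ho⟩ := h.c_lim
  obtain ⟨Ck, hCk, hk⟩ := kap_le
  have hL := h.hL
  have hβ := h.hβ
  have hZ' : ∀ M : ℕ, (q.Z ^ (2 * M ^ 2))⁻¹ ≠ 0 := fun M => inv_ne_zero (pow_ne_zero _ h.Z_ne)
  refine ⟨o, ratio_lim' AA (z := fun M θ => Zw par0 (sec (M + 1) θ) 1)
    (Z := fun M => (q.Z ^ (2 * (M + 1) ^ 2))⁻¹) ?_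
    ((lin_geo (128 * Ck * L ^ 2 * (1 + β⁻¹))).comp (nst_tendsto (L := L) (by omega)))
    (fun θ => h.a_lim θ AA) ho, (ho AA).congr' ?_⟩
  · filter_upwards [eventually_ge_atTop 128, eventually_ge_atTop (16 * (q.R + 1))] with M h1 h2
    obtain ⟨f1, f2⟩ := free_sec (M := M + 1) (by omega)
    have hS : 0 < ∑ θ, Zw par0 (sec (M + 1) θ) 1 :=
      f2.trans_le (single_le_sum (fun θ _ => f1 θ) (mem_univ AA))
    refine ⟨hZ' _, f1, hS, fun θ => ?_⟩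
    by_cases hθ : θ = (false, false)
    · obtain ⟨u, v, c1, c2, c3, c4⟩ := h.per h1 h2 hθ
      have e0 : Zw par0 (sec (M + 1) θ) 1 = 0 := by rw [hθ, sec_ff, Zw_per]
      rw [e0, zero_mul]
      simp only [zero_add]
      exact ⟨_, _, c3, c4, per_num hβ (by positivity) hS.le c1 c2
        (h.kap_bd hCk hS (by omega) (hk (M + 1) (by omega)))⟩
    · obtain ⟨c3, c4⟩ := h.inv h1 h2 (hD M θ hθ)
      refine ⟨0, 0, by rw [add_zero, c3], by rw [add_zero, c4], ?_, ?_⟩ <;>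
        rw [abs_zero, Function.comp_apply] <;> exact mul_nonneg (by positivity) hS.le
  · filter_upwards [eventually_ge_atTop 128, eventually_ge_atTop (16 * (q.R + 1))] with M h1 h2
    obtain ⟨-, f2⟩ := free_sec (M := M + 1) (by omega)
    obtain ⟨c3, c4⟩ := h.inv h1 h2 (hD M AA (by decide))
    rw [c3, c4, ← mul_assoc, mul_div_cancel_left₀ _
      (mul_ne_zero (mul_ne_zero (hZ' _) (Real.exp_ne_zero _)) f2.ne')]

end SS

theorem stateStmt : StateStmt := by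
  obtain ⟨C₀, hgap⟩ := SS.gap_sec
  obtain ⟨L₀, hL₀, h⟩ := SS.flow_bd C₀
  refine ⟨L₀, fun L hL => ?_⟩
  obtain ⟨η₀, hη, h⟩ := h L hL
  refine ⟨η₀, hη, fun R => ?_⟩
  obtain ⟨δ₀, hδ, h⟩ := h R
  refine ⟨δ₀, hδ, fun q hR hq Y O h0 hdep hbd => ?_⟩
  obtain ⟨β, hβ, h⟩ := h q hR hq Y
  have hs : ∀ M : ℕ, (⟨0, Y, O, false, 0⟩ : Src M).Ok := fun M =>
    ⟨h0, hdep, hbd, fun e => by cases e⟩
  refine SS.Fl.stateOK (L := L) (Y := Y) (β := β) ⟨by omega, hq.ok, hβ, hs, fun M h1 h2 θ => ?_⟩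
    fun M θ => (hgap (M + 1) θ).2
  exact h (SS.gS M Y O θ) (SS.ok_sec (hs _) θ) (inferInstanceAs (Subsingleton Unit))
    (fun _ => rfl) (fun _ => rfl) (sec_flat θ) (hR ▸ h2.trans (Nat.le_succ M)) (hgap (M + 1) θ).1 _
    (SS.nst_le (h1.trans (Nat.le_succ M))) (SS.le_nst (by omega) _)

end Vale.Agent.P144Z
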