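import Vale.Agent.P144Z.RN.Basic
import Vale.Agent.P144Z.R1.Main
import Vale.Agent.P144Z.R3W.Main
import Vale.Agent.P144Z.R4a.Main
import Vale.Agent.P144Z.R5.Main
import Vale.Agent.P144Z.R6.Main
import Vale.Agent.P144Z.R8.Main

/-!
# The flow in a flat gauge field with at most one source
-/

namespace Vale.Agent.P144Z.SS

open Finset Matrix

theorem anch_mono {M : ℕ} [NeZero M] {ℓ : ℕ} {τ τ' ε ε' : ℝ} {f f' : Finset (Tor M) → ℝ}
    (h : Anch ℓ τ f ε) (h0 : ∀ X, 0 ≤ f' X) (hf : ∀ X, f' X ≤ f X) (hτ : τ' ≤ τ) (hε : ε ≤ ε') :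
    Anch ℓ τ' f' ε' := fun z => by
  refine le_trans (sum_le_sum fun X _ => ?_) ((h z).trans hε)
  refine mul_le_mul (hf X) (Real.exp_le_exp.2 ?_) (Real.exp_pos _).le ((h0 X).trans (hf X))
  exact div_le_div_of_nonneg_right (mul_le_mul_of_nonneg_right hτ (Nat.cast_nonneg _))
    (Nat.cast_nonneg _)

theorem sc_succ (L j : ℕ) : sc L (j + 1) = L * sc L j := by
  unfold sc; ring

theorem eight_le_sc {L : ℕ} (hL : 1 ≤ L) (j : ℕ) : 8 ≤ sc L j :=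
  Nat.le_mul_of_pos_right 8 (Nat.pow_pos hL)

theorem sc_mono {L : ℕ} (hL : 1 ≤ L) {i j : ℕ} (h : i ≤ j) : sc L i ≤ sc L j :=
  Nat.mul_le_mul_left 8 (Nat.pow_le_pow_right hL h)

theorem th_le {L : ℕ} (hL : 256 ≤ L) : 0 ≤ th L ∧ th L ≤ 3 / 4 := by
  have h1 : (16 : ℝ) ≤ √(L : ℝ) := Real.le_sqrt_of_sq_le (by exact_mod_cast hL)
  refine ⟨inv_nonneg.2 (by linarith), ?_⟩
  rw [th, inv_le_comm₀ (by linarith) (by norm_num)]
  linarith

variable {g : Geo}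

theorem df_nonneg (ℓ : ℕ) (h β : ℝ) (s s' : g.St) (X : Finset g.P) : 0 ≤ g.df ℓ h β s s' X :=
  add_nonneg (RN.pn_nonneg _) (RN.pn_nonneg _)

theorem bf_nonneg (ℓ : ℕ) (h : ℝ) (s : g.St) (X : Finset g.P) : 0 ≤ g.bf ℓ h s X := by
  unfold Geo.bf
  split_ifs
  · exact add_nonneg (RN.pn_nonneg _) (RN.pn_nonneg _)
  · exact le_rfl

theorem anch_df_self {ℓ : ℕ} (hℓ : 1 ≤ ℓ) {h β : ℝ} (hh : 0 < h) (hβ : 0 < β) (τ : ℝ) (s : g.St) :
    Anch ℓ τ (g.df ℓ h β s s) 0 := fun z => by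
  refine (sum_eq_zero fun X _ => ?_).le
  have e : g.dp ℓ X 0 = 0 := by
    unfold Geo.dp
    split_ifs
    · rw [map_zero, sub_zero]
    · rfl
  rw [Geo.df, sub_self, sub_self, e, RN.pn_zero hℓ hh hβ, add_zero, zero_mul]

theorem bf_mono {ℓ : ℕ} (hℓ : 1 ≤ ℓ) {h h' : ℝ} (hh' : 0 < h') (hh : h' ≤ h) {s : g.St}
    (hs : g.Wf s) (X : Finset g.P) : g.bf ℓ h' s X ≤ g.bf ℓ h s X := by
  unfold Geo.bf
  split_ifs
  · exact add_le_add
      (RN.pn_mono hℓ hh' one_pos hh le_rfl Subset.rfl (RN.noB_mem (hs.Kmem X)))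
      (RN.pn_mono hℓ hh' one_pos hh le_rfl Subset.rfl (RN.noB_mem (hs.car_mem X)))
  · exact le_rfl

theorem pn_noF_one (hA : IsSign g.A) {ℓ : ℕ} (hℓ : 1 ≤ ℓ) {h β : ℝ} (hh : 0 < h) (hβ : 0 < β)
    {X : Finset g.P} {F : g.E} (hF : F ∈ g.sub X) :
    g.pn 1 1 β X (g.noF F) ≤ g.pn ℓ h β X F :=
  (Geo.pn_noF_eq hA hℓ hh hβ hF le_rfl one_pos).le.trans (Geo.pn_noF_le hA hℓ hh hβ hF)

theorem cov_one (hK : Subsingleton g.K) (hf : ∀ f, flux g.A f = 1) (ℓ : ℕ) : g.Cov 1 ℓ := by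
  refine ⟨univ.image fun k => (g.src k).y, card_image_le.trans ?_, fun f h => ?_, fun k =>
    ⟨_, mem_image_of_mem _ (mem_univ k), by rw [tdist_self]; exact Nat.zero_le _⟩⟩
  · exact Fintype.card_le_one_iff_subsingleton.2 hK
  · rw [hf f] at h; norm_num at h

/-- The bounds on the constants of the flow. -/
theorem flow_bd (C₀ : ℝ) : ∃ L₀ : ℕ, 256 ≤ L₀ ∧ ∀ L ≥ L₀, ∃ η₀ > 0, ∀ R : ℕ, ∃ δ₀ > 0,
    ∀ q : Par, q.R = R → Crit L q η₀ δ₀ → ∀ Y : Finset (ℤ × ℤ), ∃ β > 0, ∀ g : Geo, g.Ok →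
    Subsingleton g.K → (∀ k, (g.src k).Y = Y) → (∀ k, (g.src k).on = false) →
    (∀ f, flux g.A f = 1) → 16 * (R + 1) ≤ g.M →
    (∀ v, (Dm g.A *ᵥ v) ⬝ᵥ (Dm g.A *ᵥ v) ≤
      (C₀ * g.M) ^ 2 * (((Dm g.A * Dm g.A) *ᵥ v) ⬝ᵥ ((Dm g.A * Dm g.A) *ᵥ v))) →
    ∀ N : ℕ, 16 * sc L N ≤ g.M → g.M ≤ 16 * sc L (N + 1) → g.Conv L q N ∧
      (∀ j ≤ N, Anch (sc L j) L (fun U => g.pn 1 1 β U (g.cs L q j U)) (3 * (3 / 4) ^ j)) ∧
      ∑ U, g.pn (sc L N) ((L : ℝ) ^ 2 / 2) β U (g.last L q N U) ≤ 2 * (3 / 4) ^ N := by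
  obtain ⟨C₁, hC₁, L₁, hgen⟩ := Geo.step_gen
  obtain ⟨L₂, hlast⟩ := Geo.step_last C₀
  obtain ⟨Cs, hCs, hsch⟩ := Geo.sch_flat
  obtain ⟨Cb, hCb, hbf⟩ := Geo.ag_bf
  refine ⟨max (max L₁ L₂) (max 256 ⌈C₁ * Cs ^ 2⌉₊), by omega, fun L hL => ?_⟩
  have hL256 : 256 ≤ L := by omega
  have hLr : (256 : ℝ) ≤ L := by exact_mod_cast hL256
  have hLC : C₁ * Cs ^ 2 ≤ L := (Nat.le_ceil _).trans (by exact_mod_cast (by omega))
  obtain ⟨Cg, hCg, hgen⟩ := hgen L (by omega)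
  obtain ⟨Cl, hCl, hlast⟩ := hlast L (by omega)
  have hh : (0 : ℝ) < (L : ℝ) ^ 2 := by positivity
  obtain ⟨Cd, hCd, hdf⟩ := Geo.init_df L ((L : ℝ) ^ 2) (by positivity) hh
  obtain ⟨C, hC1, hC2⟩ : ∃ C : ℝ, Cg ≤ C ∧ Cl ≤ C := ⟨max Cg Cl, le_max_left _ _, le_max_right _ _⟩
  have hC : 1 ≤ C := hCg.trans hC1
  have hE : 1 ≤ Real.exp L := Real.one_le_exp (by positivity)
  refine ⟨(4 * C ^ 2 * Cb * Cd * Real.exp L)⁻¹, by positivity, fun R => ?_⟩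
  obtain ⟨Ci, hCi, hini⟩ := Geo.init_gen L ((L : ℝ) ^ 2) (by positivity) hh R
  refine ⟨(16 * C * Ci)⁻¹, by positivity, fun q hqR hq Y => ?_⟩
  obtain ⟨β, hβ, hini⟩ := hini Y (16 * C)⁻¹ (by positivity)
  refine ⟨β, hβ, fun g hg hK hY hon hfl hR hgap N hN hN' => ?_⟩
  have hA := hg.sign
  have e1 : Ci * (16 * C * Ci)⁻¹ = (16 * C)⁻¹ := by field_simp
  have hc16 : (16 * C)⁻¹ ≤ 1 / 16 := by
    rw [inv_le_comm₀ (by positivity) (by norm_num)]; linarith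
  obtain ⟨hW, hWa⟩ := hini q hqR hq.ok _ hq.small (by rw [e1]; linarith) g hg hK hY β hβ le_rfl
  rw [e1] at hWa
  have hr0 : ∀ j : ℕ, (0 : ℝ) < (3 / 4) ^ j := fun j => by positivity
  have hr1 : ∀ j : ℕ, (3 / 4 : ℝ) ^ j ≤ 1 := fun j => pow_le_one₀ (by norm_num) (by norm_num)
  have hsc := eight_le_sc (L := L) (by omega)
  have hwf := Geo.wf_flow hg L q 0
  have hCD : ∀ {C' : ℝ} (j : ℕ), C' ≤ C → C' * (C⁻¹ * (3 / 4) ^ j) ≤ (3 / 4) ^ j := by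
    intro C' j h
    calc C' * (C⁻¹ * (3 / 4) ^ j) ≤ C * (C⁻¹ * (3 / 4) ^ j) := by gcongr
      _ = (3 / 4) ^ j := by field_simp
  have hCb' : ∀ {C' : ℝ} (j : ℕ), C' ≤ C →
      C' * ((4 * C ^ 2)⁻¹ * (3 / 4) ^ j) ≤ C⁻¹ * (3 / 4) ^ j / 4 := by
    intro C' j h
    calc C' * ((4 * C ^ 2)⁻¹ * (3 / 4) ^ j) ≤ C * ((4 * C ^ 2)⁻¹ * (3 / 4) ^ j) := by gcongr
      _ = C⁻¹ * (3 / 4) ^ j / 4 := by field_simp
  have hCi1 : ∀ j : ℕ, C⁻¹ * (3 / 4 : ℝ) ^ j ≤ (3 / 4) ^ j := fun j =>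
    mul_le_of_le_one_left (hr0 j).le (inv_le_one_of_one_le₀ hC)
  have hb : ∀ j ≤ N, Anch (sc L j) L (g.bf (sc L j) ((L : ℝ) ^ 2) (g.flow L q 0 j))
      ((4 * C ^ 2)⁻¹ * (3 / 4) ^ j) := by
    intro j hj
    have h1 := sc_mono (L := L) (by omega) hj
    refine anch_mono (hbf L (by omega) q _ hq.ok hq.bulk g hg (hqR ▸ hR) j (by omega))
      (bf_nonneg _ _ _) (bf_mono (by have := hsc j; omega) hh ?_ (hwf j)) le_rfl ?_
    · have h2 : (1 : ℝ) ≤ 2 ^ j := one_le_pow₀ (by norm_num)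
      have h3 : (L : ℝ) ^ 2 * 1 * 1 ≤ (L : ℝ) ^ 2 * L * 2 ^ j := by gcongr; linarith
      unfold hb
      linarith [pow_succ (L : ℝ) 2]
    · obtain ⟨t0, t1⟩ := th_le hL256
      have e : Cb * Real.exp L * (4 * C ^ 2 * Cb * Cd * Real.exp L)⁻¹ = (4 * C ^ 2 * Cd)⁻¹ := by
        field_simp
      rw [e]
      exact mul_le_mul (inv_anti₀ (by positivity) (le_mul_of_one_le_right (by positivity) hCd))
        (pow_le_pow_left₀ t0 t1 j) (pow_nonneg t0 j) (by positivity)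
  have hstep : ∀ j < N, Anch (sc L j) L (g.df (sc L j) ((L : ℝ) ^ 2) β (g.flow L q 0 j)
      (g.srcSt 0)) (C⁻¹ * (3 / 4) ^ j) →
      g.ExpId (covP (Dm g.A) (sc L j) (sc L (j + 1))) (g.flow L q 0 j) ∧
      Anch (sc L (j + 1)) L (g.df (sc L (j + 1)) ((L : ℝ) ^ 2) β (g.flow L q 0 (j + 1))
        (g.srcSt 0)) (C⁻¹ * (3 / 4) ^ (j + 1)) ∧
      Anch (sc L (j + 1)) L (fun U => g.pn 1 1 β U (g.cs L q (j + 1) U))
        (3 * (3 / 4) ^ (j + 1)) := by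
    intro j hj hD
    have h1 := sc_mono (L := L) (by omega) (Nat.succ_le_of_lt hj)
    have h8 := hsc j
    rw [Nat.succ_eq_add_one, sc_succ] at h1
    have h2 : 2 * sc L j ≤ L * sc L j := Nat.mul_le_mul_right _ (by omega)
    have hl0 : (0 : ℝ) < sc L j := by exact_mod_cast (by omega)
    have e2 : √((sc L j : ℝ) / (L * sc L j : ℕ)) ^ 2 = (L : ℝ)⁻¹ := by
      rw [Real.sq_sqrt (by positivity)]
      push_cast
      field_simp
    have hκ : 0 < Cs * √((sc L j : ℝ) / (L * sc L j : ℕ)) := by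
      refine mul_pos (by linarith) (Real.sqrt_pos.2 (div_pos hl0 ?_))
      push_cast
      positivity
    obtain ⟨a1, a2, a3⟩ := hgen g hA j (sc L j) (fun k hk => by rw [hon k] at hk; cases hk) h8
      (by omega) 1 le_rfl (cov_one hK hfl _) _ _ ((L : ℝ) ^ 2) ((L : ℝ) ^ 2) β hκ.le
      (fun z => hsch g hA _ _ (by omega) h2 (by omega) z fun f _ => hfl f) le_rfl hh
      (by linarith) hκ (mul_comm _ _).le (by
        rw [mul_pow, e2, Nat.cast_one, mul_one, ← mul_assoc, ← div_eq_mul_inv,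
          div_le_one (by linarith)]
        exact hLC) hβ _ _ (hwf j) (Geo.wf_srcSt 0).1 (Geo.wf_srcSt 0).2 _ _ 0
      ((hCD j hC1).trans (hr1 j)) (by linarith [hCb' j hC1, hCi1 j, hr1 j, hr0 j])
      (by rw [mul_zero]; norm_num) hD (hb j hj.le) (anch_df_self (by omega) hh hβ _ _)
    rw [Geo.step_zero] at a2
    rw [← sc_succ] at a1 a2 a3
    refine ⟨a1, anch_mono a2 (df_nonneg _ _ _ _ _) (fun _ => le_rfl) le_rfl ?_,
      anch_mono a3 (fun _ => RN.pn_nonneg _) (fun U => ?_) (by linarith) ?_⟩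
    · rw [pow_succ (3 / 4 : ℝ)]
      linarith [hCb' j hC1]
    · have e3 : g.intg (sc L j) (sc L (j + 1)) (g.srcSt 0) U = 0 := Geo.Cl_zero _ U
      rw [e3, sub_zero]
      exact pn_noF_one hA (by omega) (by positivity) hβ
        ((hwf j).Cl_mem (covP_anti (isD_Dm hA).anti _ _) U)
    · rw [pow_succ (3 / 4 : ℝ), mul_add]
      linarith [hCb' j hC1, hCD j hC1, hCi1 j, hr0 j]
  have hD : ∀ j ≤ N, Anch (sc L j) L (g.df (sc L j) ((L : ℝ) ^ 2) β (g.flow L q 0 j)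
      (g.srcSt 0)) (C⁻¹ * (3 / 4) ^ j) := by
    intro j
    induction j with
    | zero =>
      intro _
      refine anch_mono ((hdf g hg q _ hq.ok hq.x hq.Z β _ hβ).2 hon hWa) (df_nonneg _ _ _ _ _)
        (fun _ => le_rfl) le_rfl ?_
      have e : Cd * (4 * C ^ 2 * Cb * Cd * Real.exp L)⁻¹ = (4 * C * (C * Cb * Real.exp L))⁻¹ := by
        field_simp
      have h2 : (4 * C * (C * Cb * Real.exp L))⁻¹ ≤ (4 * C)⁻¹ := by
        exact inv_anti₀ (by positivity) (le_mul_of_one_le_right (by positivity)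
          (one_le_mul_of_one_le_of_one_le (one_le_mul_of_one_le_of_one_le hC hCb) hE))
      have e4 : (4 * C)⁻¹ = C⁻¹ / 4 := by field_simp
      have e16 : (16 * C)⁻¹ = C⁻¹ / 16 := by field_simp
      have h3 : 0 < C⁻¹ := by positivity
      rw [e, pow_zero]
      linarith
    | succ j ih => exact fun hj => (hstep j hj (ih (by omega))).2.1
  obtain ⟨b1, b2⟩ := hlast g hA (sc L N) (hsc N) (by omega) (by rw [← sc_succ]; exact hN') hgap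
    ((L : ℝ) ^ 2) β le_rfl hβ _ _ (hwf N) (Geo.wf_srcSt 0).1 (Geo.wf_srcSt 0).2 _ _ 0
    ((hCD N hC2).trans (hr1 N)) (by linarith [hCb' N hC2, hCi1 N, hr1 N, hr0 N])
    (by rw [mul_zero]; norm_num) (hD N le_rfl) (hb N le_rfl)
    (anch_df_self (by have := hsc N; omega) hh hβ _ _)
  refine ⟨⟨hW, fun j hj => (hstep j hj (hD j hj.le)).1, b1⟩, fun j hj => ?_, ?_⟩
  · cases j with
    | zero =>
      refine anch_mono hWa (fun _ => RN.pn_nonneg _) (fun U => ?_) le_rfl (by linarith)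
      exact pn_noF_one hA (by norm_num) hh hβ (Geo.W0_mem hg q U)
    | succ j => exact (hstep j hj (hD j (by omega))).2.2
  · simp only [Geo.Cl_zero, sub_zero] at b2
    refine b2.trans ?_
    rw [mul_add]
    linarith [hCb' N hC2, hCD N hC2, hCi1 N, hr0 N]

end Vale.Agent.P144Z.SS
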