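import Vale.Agent.P144Z.Top
import Vale.Agent.P144Z.G.Main
import Vale.Agent.P144Z.A1.Main
import Vale.Agent.P144Z.A2.Main

/-!
Comparison of sums over sets of points in different sectors and volumes: the geometric lemmas.
-/

namespace Vale.Agent.P144Z.SS

open Finset Matrix

section empty

theorem Cl_empty {P 𝒜 S : Type} [DecidableEq P] [NormedCommRing 𝒜] [NormedAlgebra ℝ 𝒜]
    [Fintype S] [DecidableEq S] (E : 𝒜 →ₗ[ℝ] Ev S) (H : Finset P → 𝒜) (h1 : E 1 = 1)
    (hH : H ∅ = 0) : Cl E H ∅ = 0 := by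
  have h : lg (1 : Ev S) = 0 := by
    have := lg_exp (0 : Ev S)
    rwa [NormedSpace.exp_zero] at this
  simp [Cl, hH, h1, h]

theorem evG_one {S : Type} [Fintype S] [DecidableEq S] (C : Matrix S S ℝ) : evG C 1 = 1 := by
  change toEv (gauss C (Ev.val 1)) = 1
  rw [map_one, gauss_one, ← map_one (Ev.val (S := S)), toEv_val]

variable {g : Geo}

theorem E0_one (w : ℝ) : g.E0 w 1 = 1 := by
  change ∑ n : g.Cfg, (1 : g.E) * ∏ e : Tor g.M × Fin 2,
    (if n e then w • g.edge e.1 e.2 else 1 - w • g.edge e.1 e.2) = 1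
  simp only [one_mul]
  rw [← Fintype.piFinset_univ, ← prod_univ_sum (fun _ => (univ : Finset Bool))
    (fun (e : Tor g.M × Fin 2) (b : Bool) =>
      if b then w • g.edge e.1 e.2 else 1 - w • g.edge e.1 e.2)]
  simp

theorem put_ne_empty (y : g.P) {Y : Finset (ℤ × ℤ)} (h : (0, 0) ∈ Y) : g.put y Y ≠ ∅ :=
  ne_empty_of_mem (mem_image_of_mem _ h)

theorem zero_mem_hull {B : Finset (ℤ × ℤ)} (h : (0, 0) ∈ B) : (0, 0) ∈ hull B :=
  mem_biUnion.2 ⟨((0, 0), (0, 0)), mem_product.2 ⟨h, h⟩, by simp⟩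

theorem Hin_empty (hg : g.Ok) (q : Par) : g.Hin q ∅ = 0 := by
  funext n
  have h1 : ∀ y : g.P, (potSets q.R).filter (fun B => g.put y (hull B) = ∅) = ∅ := fun y =>
    filter_eq_empty_iff.2 fun B hB => put_ne_empty y (zero_mem_hull (mem_filter.1 hB).2)
  have h2 : univ.filter (fun k => g.put (g.src k).y (g.src k).Y = ∅) = ∅ :=
    filter_eq_empty_iff.2 fun k _ => put_ne_empty _ (hg.src k).zero
  simp only [Geo.Hin, h1, h2, sum_empty, sum_const_zero, zero_smul, add_zero, Pi.zero_apply]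

theorem W0_empty (hg : g.Ok) (q : Par) : g.W0 q ∅ = 0 :=
  Cl_empty _ _ (E0_one _) (Hin_empty hg q)

theorem car_empty (s : g.St) : s.car ∅ = 0 := by
  have h1 : univ.filter (fun x : g.P => star x = ∅) = ∅ :=
    filter_eq_empty_iff.2 fun x _ => ne_empty_of_mem (G.mem_star_self x)
  have h2 : univ.filter (fun k => star (g.src k).y = ∅) = ∅ :=
    filter_eq_empty_iff.2 fun k _ => ne_empty_of_mem (G.mem_star_self _)
  simp only [Geo.St.car, h1, h2, sum_empty, add_zero]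

theorem intg_empty {s : g.St} (hs : s.K ∅ = 0) (ℓ ℓ' : ℕ) : g.intg ℓ ℓ' s ∅ = 0 :=
  Cl_empty _ _ (evG_one _) (by rw [Geo.St.H, hs, car_empty, add_zero])

theorem step_empty {s : g.St} (hs : s.K ∅ = 0) (j ℓ ℓ' : ℕ) (d : ℝ × ℝ) :
    (g.step j ℓ ℓ' d s).K ∅ = 0 := by
  classical
  refine sum_eq_zero fun U hU => ?_
  have h1 : U = ∅ := by
    have h2 := (mem_filter.1 hU).2
    unfold Geo.tgt at h2
    split_ifs at h2
    · exact subset_empty.1 (h2 ▸ G.subset_plus U)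
    · exact h2
  subst h1
  have h2 : g.rem ℓ ℓ' s ∅ = 0 := by
    rw [Geo.rem, intg_empty hs, car_empty, map_zero, sub_zero, sub_zero]
  have h3 : ∀ k, ¬ g.XtrB j ℓ ℓ' ∅ k := fun k h => notMem_empty _ h.2.1
  rw [h2]
  simp [Geo.xtr, h3]

theorem flow_empty (hg : g.Ok) (L : ℕ) (q : Par) (d : ℕ → ℝ × ℝ) (j : ℕ) :
    (g.flow L q d j).K ∅ = 0 := by
  induction j with
  | zero =>
    have h2 : univ.filter (fun k => g.put (g.src k).y (g.src k).Y = ∅) = ∅ :=
      filter_eq_empty_iff.2 fun k _ => put_ne_empty _ (hg.src k).zero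
    simp only [Geo.flow, Geo.init, W0_empty hg, h2, map_zero, sum_empty, sub_zero]
  | succ j ih => exact step_empty ih _ _ _ _

theorem cs_empty {g : Geo} (hg : g.Ok) (L : ℕ) (q : Par) (j : ℕ) : g.cs L q j ∅ = 0 := by
  cases j with
  | zero => simp only [Geo.cs, W0_empty hg, map_zero]
  | succ j => simp only [Geo.cs, Geo.cst, intg_empty (flow_empty hg L q 0 j), map_zero]

end empty

section shift

variable {M M' : ℕ} [NeZero M] [NeZero M']

theorem shf_id (c x : Tor M) : shf c c x = x := G.add_prj_lft x c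

omit [NeZero M] [NeZero M'] in
theorem shf_self (c : Tor M) (c' : Tor M') : shf c c' c = c' := by
  simp [shf, lft, prj]

theorem tdist_shf {c : Tor M} {c' : Tor M'} {r : ℕ} (hr : 4 * r < M) (hr' : 4 * r < M')
    {x y : Tor M} (hx : tdist x c ≤ r) (hy : tdist y c ≤ r) :
    tdist (shf c c' x) (shf c c' y) = tdist x y := by
  obtain ⟨a1, a2⟩ := G.lft_bound hx
  obtain ⟨b1, b2⟩ := G.lft_bound hy
  have e1 : shf c c' x - shf c c' y = prj M' (lft (x - c) - lft (y - c)) := by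
    rw [shf, shf, G.prj_sub, add_sub_add_left_eq_sub]
  have e2 : x - y = prj M (lft (x - c) - lft (y - c)) := by
    rw [G.prj_sub, prj_lft, prj_lft, sub_sub_sub_cancel_right]
  have k1 : |(lft (x - c) - lft (y - c)).1| ≤ 2 * r := by
    rw [Prod.fst_sub]
    rw [abs_le] at a1 b1 ⊢
    omega
  have k2 : |(lft (x - c) - lft (y - c)).2| ≤ 2 * r := by
    rw [Prod.snd_sub]
    rw [abs_le] at a2 b2 ⊢
    omega
  rw [G.tdist_def, G.tdist_def, e1, e2, lft_prj (by omega) (by omega),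
    lft_prj (by omega) (by omega)]

theorem shf_shf {c : Tor M} {c' : Tor M'} {r : ℕ} (hr' : 2 * r < M') {x : Tor M}
    (hx : tdist x c ≤ r) : shf c' c (shf c c' x) = x := by
  obtain ⟨a1, a2⟩ := G.lft_bound hx
  have e : lft (shf c c' x - c') = lft (x - c) := G.lft_add_sub c' (by omega) (by omega)
  rw [shf, e]
  exact G.add_prj_lft x c

theorem tdist_shf_le {c : Tor M} {c' : Tor M'} {r : ℕ} {x : Tor M} (hx : tdist x c ≤ r) :
    tdist (shf c c' x) c' ≤ r :=
  G.tdist_le_of_abs c' (G.lft_bound hx).1 (G.lft_bound hx).2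

theorem stein_shf {c : Tor M} {c' : Tor M'} {r : ℕ} (hr : 4 * r < M) (hr' : 4 * r < M')
    {U : Finset (Tor M)} (hc : c ∈ U) (hU : stein U ≤ r) : stein (U.image (shf c c')) = stein U :=
  stein_iso (shf c c') c r (fun _ _ hx hy => tdist_shf hr hr' hx hy)
    (fun x' hx' => by
      rw [shf_self] at hx'
      exact ⟨shf c' c x', tdist_shf_le hx', shf_shf (by omega) hx'⟩)
    hc (by rw [tdist_self, zero_add]; exact hU)

theorem image_shf_shf {c : Tor M} {c' : Tor M'} {r : ℕ} (hr' : 2 * r < M')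
    {U : Finset (Tor M)} (hc : c ∈ U) (hU : stein U ≤ r) :
    (U.image (shf c c')).image (shf c' c) = U := by
  rw [image_image]
  refine (image_congr (g := id) fun x hx => ?_).trans image_id
  exact shf_shf hr' ((tdist_le_stein hx hc).trans hU)

end shift

section sums

variable {M M' : ℕ} [NeZero M] [NeZero M']

theorem large_num {t u : ℝ} (ht : 0 < t) (hu : 4 * t ≤ u) : (t + 1) ^ 2 * Real.exp (-u) ≤ 1 / t := by
  have h1 : (t + 1) ^ 4 ≤ Real.exp u := by
    refine le_trans (pow_le_pow_left₀ (by linarith) (Real.add_one_le_exp t) 4) ?_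
    rw [← Real.exp_nat_mul]
    exact Real.exp_le_exp.2 (by push_cast; linarith)
  rw [Real.exp_neg, ← div_eq_mul_inv, div_le_div_iff₀ (Real.exp_pos u) ht, one_mul]
  refine le_trans ?_ h1
  have h2 : t ≤ (t + 1) ^ 2 := by nlinarith
  calc (t + 1) ^ 2 * t ≤ (t + 1) ^ 2 * (t + 1) ^ 2 :=
        mul_le_mul_of_nonneg_left h2 (sq_nonneg _)
    _ = _ := by ring

theorem large_le {ℓ L : ℕ} (hℓ : 8 ≤ ℓ) (hL : 256 ≤ L) (hj : 16 * ℓ ≤ M) {ε : ℝ}
    {f : Finset (Tor M) → ℝ} (h : Anch ℓ L (fun U => |f U|) ε) :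
    ∑ U ∈ univ.filter (fun U : Finset (Tor M) => M / 32 ≤ stein U), |f U| ≤ ε * ℓ / M := by
  have hε := G.anch_nonneg (fun U => abs_nonneg (f U)) h
  have hl : (0 : ℝ) < ℓ := by exact_mod_cast (show 0 < ℓ by omega)
  have hM : (0 : ℝ) < M := by exact_mod_cast (show 0 < M by omega)
  refine (h.large (by omega) (Nat.cast_nonneg L) (fun U => abs_nonneg (f U)) (M / 32)
    (by omega)).trans ?_
  have h1 : 4 * ((M : ℝ) / ℓ) ≤ L * (M / 32 : ℕ) / ℓ := by
    rw [← mul_div_assoc]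
    refine div_le_div_of_nonneg_right ?_ hl.le
    have h2 : 4 * M ≤ L * (M / 32) := le_trans (by omega) (Nat.mul_le_mul_right _ hL)
    exact_mod_cast h2
  refine (mul_le_mul_of_nonneg_right (large_num (div_pos hM hl) h1) hε).trans (le_of_eq ?_)
  field_simp

/-- Two functions of sets that agree on the small sets. -/
theorem alpha_abs {ℓ L : ℕ} (hℓ : 8 ≤ ℓ) (hL : 256 ≤ L) (hj : 16 * ℓ ≤ M) {ε : ℝ}
    {f f' : Finset (Tor M) → ℝ} (h : Anch ℓ L (fun U => |f U|) ε)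
    (h' : Anch ℓ L (fun U => |f' U|) ε) (hag : ∀ U, stein U < M / 32 → f U = f' U) :
    |∑ U, f U - ∑ U, f' U| ≤ 2 * ε * ℓ / M := by
  have h1 := large_le hℓ hL hj h
  have h2 := large_le hℓ hL hj h'
  rw [← sum_sub_distrib, ← sum_filter_of_ne (p := fun U => M / 32 ≤ stein U)
    fun U _ hU => not_lt.1 fun h3 => hU (by rw [hag U h3, sub_self])]
  refine (abs_sum_le_sum_abs _ _).trans ((sum_le_sum fun U _ => abs_sub _ _).trans ?_)
  rw [sum_add_distrib]
  have e : 2 * ε * ℓ / M = ε * ℓ / M + ε * ℓ / M := by ring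
  linarith

theorem tail_le {ℓ L T : ℕ} {ε : ℝ} {f : Finset (Tor M) → ℝ} (h : Anch ℓ L (fun U => |f U|) ε)
    (h0 : ∀ U, 0 ∉ U → f U = 0) :
    |∑ U, f U - ∑ U ∈ univ.filter (fun U : Finset (Tor M) => 0 ∈ U ∧ stein U ≤ T), f U| ≤
      ε * Real.exp (-(L * T / ℓ)) := by
  rw [← sum_filter_add_sum_filter_not univ (fun U : Finset (Tor M) => 0 ∈ U ∧ stein U ≤ T),
    add_sub_cancel_left, ← sum_filter_of_ne (p := fun U => 0 ∈ U)
      fun U _ hU => not_not.1 fun h3 => hU (h0 U h3)]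
  refine (abs_sum_le_sum_abs _ _).trans ((G.anch_cover' (t := L * T / ℓ)
    (fun U => abs_nonneg (f U)) h _ {0} (fun U hU => ?_) fun U hU => ?_).trans (le_of_eq ?_))
  · exact ⟨0, (mem_filter.1 hU).2, 0, mem_singleton_self _, by rw [tdist_self]; omega⟩
  · have h1 := (mem_filter.1 (mem_filter.1 hU).1).2
    have h2 : T ≤ stein U := le_of_lt (not_le.1 fun h3 => h1 ⟨(mem_filter.1 hU).2, h3⟩)
    have h3 : (T : ℝ) ≤ stein U := by exact_mod_cast h2
    gcongr
  · simp [mul_comm]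

/-- Two functions of sets, anchored at the origin, on two tori. -/
theorem gamma_abs {ℓ L T : ℕ} (hT : 4 * T < M) (hT' : 4 * T < M') {ε : ℝ}
    {f : Finset (Tor M) → ℝ} {f' : Finset (Tor M') → ℝ} (h : Anch ℓ L (fun U => |f U|) ε)
    (h' : Anch ℓ L (fun U => |f' U|) ε) (h0 : ∀ U, 0 ∉ U → f U = 0)
    (h0' : ∀ U, 0 ∉ U → f' U = 0)
    (hag : ∀ U, 0 ∈ U → stein U ≤ T → f' (U.image (shf 0 0)) = f U) :
    |∑ U, f U - ∑ U, f' U| ≤ 2 * ε * Real.exp (-(L * T / ℓ)) := by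
  have h1 := tail_le (T := T) h h0
  have h2 := tail_le (T := T) h' h0'
  have e : ∑ U ∈ univ.filter (fun U : Finset (Tor M) => 0 ∈ U ∧ stein U ≤ T), f U =
      ∑ U ∈ univ.filter (fun U : Finset (Tor M') => 0 ∈ U ∧ stein U ≤ T), f' U := by
    refine sum_nbij' (fun U => U.image (shf 0 0)) (fun U => U.image (shf 0 0))
      (fun U hU => ?_) (fun U hU => ?_) (fun U hU => ?_) (fun U hU => ?_) fun U hU => ?_
    all_goals obtain ⟨a1, a2⟩ := (mem_filter.1 hU).2
    · exact mem_filter.2 ⟨mem_univ _, mem_image.2 ⟨0, a1, shf_self _ _⟩,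
        (stein_shf hT hT' a1 a2).trans_le a2⟩
    · exact mem_filter.2 ⟨mem_univ _, mem_image.2 ⟨0, a1, shf_self _ _⟩,
        (stein_shf hT' hT a1 a2).trans_le a2⟩
    · exact image_shf_shf (by omega) a1 a2
    · exact image_shf_shf (by omega) a1 a2
    · exact (hag U a1 a2).symm
  rw [e] at h1
  rw [abs_le] at h1 h2 ⊢
  constructor <;> linarith [h1.1, h1.2, h2.1, h2.2]

end sums

theorem sc_ge {L : ℕ} (hL : 1 ≤ L) (j : ℕ) : 8 ≤ sc L j :=
  Nat.le_mul_of_pos_right 8 (Nat.pow_pos hL)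

end Vale.Agent.P144Z.SS
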